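import Vale.Agent.P251EJ.Defs

/-!
# P251EJ, row TRA: transport of the presentation along `K0 p ≅ π_{2*} B`
-/

open CategoryTheory MonoidalCategory MonObj Limits Pretriangulated

set_option linter.unusedSectionVars false

universe u

noncomputable section

namespace Vale.Agent.P251EJ18

open Vale.Agent.P251 Vale.Agent.P251.S Vale.Agent.P251.T Vale.Agent.P251.M Vale.Agent.P251.F
  Vale.Agent.P251.I EvenSpheres Vale.Agent.P257.H80 Vale.Agent.P221.H246 Vale.Agent.P221.T
  Vale.Agent.P221.T.H520 Vale.Agent.P221X.EXI Vale.Agent.P251EJ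

/-- transport of a presentation along an isomorphism of graded rings -/
def presMap {R R' A : Type} [CommRing R] [CommRing R'] [CommRing A] {hR : ℤ → R → Prop}
    {hR' : ℤ → R' → Prop} {H : ℤ → AddSubgroup A} {lam : R →+* A} (P : Pres hR H lam)
    (e : R ≃+* R') (he : ∀ d c, hR d c → hR' d (e c)) :
    Pres hR' H (lam.comp e.symm.toRingHom) where
  I := P.I
  deg := P.deg
  M i a b := e (P.M i a b)
  M_hom i a b := he _ _ (P.M_hom i a b)
  g := P.g
  g_mem := P.g_mem
  g_succ i a := by simpa using P.g_succ i a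
  exh d x hx := by
    obtain ⟨i, c, hc, h⟩ := P.exh d x hx
    exact ⟨i, fun a => e (c a), fun a => he _ _ (hc a), by simpa using h⟩
  kill i c hc h := by
    obtain ⟨j, hj, h0⟩ := P.kill i (fun j a => e.symm (c j a))
      (fun j hj b => by rw [hc j hj b, map_sum]; simp) (by simpa using h)
    refine ⟨j, hj, funext fun a => ?_⟩
    simpa using congrFun h0 a

/-- constants in the `t` variables are homogeneous -/
theorem hg_C {p : ℕ} [Fact p.Prime] {d : ℤ} {c : K0 p} (h : hK p d c) :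
    HG p (2 * d) (MvPolynomial.C c) := by
  classical
  intro E
  rw [MvPolynomial.coeff_C]
  split_ifs with hE
  · rw [← hE]
    have h1 : 2 * d - dT p (0 : ℕ →₀ ℕ) = 2 * d := by simp [dT]
    rw [h1]
    intro m hm
    rw [← h hm, Finsupp.weight_apply, Finsupp.weight_apply, Finsupp.sum, Finsupp.sum,
      Finset.mul_sum]
    refine Finset.sum_congr rfl fun j _ => ?_
    rw [Vale.Agent.P221.H246.sV_eq, nsmul_eq_mul, nsmul_eq_mul, wz]
    ring
  · exact MvPolynomial.isWeightedHomogeneous_zero _ _ _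

variable {𝒯 : Type u} [Category.{0} 𝒯] [Preadditive 𝒯] [HasZeroObject 𝒯]
    [HasShift 𝒯 ℤ] [∀ n : ℤ, (shiftFunctor 𝒯 n).Additive] [Pretriangulated 𝒯] [IsTriangulated 𝒯]
    [MonoidalCategory 𝒯] [SymmetricCategory 𝒯] [TensorTriangulated 𝒯] [MonoidalClosed 𝒯]
    [HasCoproducts.{0} 𝒯] [HasProducts.{0} 𝒯] [StableCat 𝒯]
    {B : 𝒯} [MonObj B] [IsCommMonObj B]

/-- the homogeneous component of degree `d` -/
def pr (B : 𝒯) [MonObj B] [IsCommMonObj B] (d : ℤ) :
    HRing (stdEven 𝒯) B →+ HRing (stdEven 𝒯) B :=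
  (DirectSum.of ((stdEven 𝒯).Gr B) d).comp (DFinsupp.evalAddMonoidHom d)

theorem pr_same {d : ℤ} {x : HRing (stdEven 𝒯) B} (h : IsHomog B d x) : pr B d x = x := by
  obtain ⟨a, rfl⟩ := h
  exact congrArg (DirectSum.of ((stdEven 𝒯).Gr B) d)
    (DirectSum.of_eq_same (β := (stdEven 𝒯).Gr B) d a)

theorem pr_ne {d k : ℤ} {x : HRing (stdEven 𝒯) B} (h : IsHomog B k x) (hk : d ≠ k) :
    pr B d x = 0 := by
  obtain ⟨a, rfl⟩ := h
  have h0 : (DirectSum.of ((stdEven 𝒯).Gr B) k a) d = 0 :=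
    DirectSum.of_eq_of_ne (β := (stdEven 𝒯).Gr B) k d a hk
  exact (congrArg (DirectSum.of ((stdEven 𝒯).Gr B) d) h0).trans (map_zero _)

theorem isHomog_pr (d : ℤ) (x : HRing (stdEven 𝒯) B) : IsHomog B d (pr B d x) := ⟨x d, rfl⟩

variable {D : MUData 𝒯} {p : ℕ} [Fact p.Prime] {b : D.R ⟶ B} [IsMonHom b] (hb : IsBPMon p b)
  {Φ : MvPolynomial ℕ ℤ →+* HRing (stdEven 𝒯) B}

theorem isHomog_ell (z : Z0 p) : IsHomog B 0 (ell hb z) := by
  rw [isHomog_iff, LaurentPolynomial.T_zero, _root_.mul_one]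
  exact DFunLike.congr_fun (Z0.hom_ext ((coactH B).comp (ell hb))
    (LaurentPolynomial.C.comp (ell hb))) z

theorem isHomog_monomial (hΦ : lawOf b = (haz p).map Φ) (m : ℕ →₀ ℕ) (z : Z0 p) :
    IsHomog B (Finsupp.weight (wz p) m) (PhiT (ell hb) Φ (MvPolynomial.monomial m z)) := by
  rw [MvPolynomial.monomial_eq, map_mul, PhiT_C, Finsupp.prod, map_prod]
  refine (isHomog_ell hb z).mul
    (IsHomog.prod _ (fun j => (m j : ℤ) * wz p j) _ fun j _ => ?_) ?_
  · rw [map_pow, PhiT_X]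
    exact (isHomog_hom hb hΦ j).pow _
  · rw [zero_add, Finsupp.weight_apply, Finsupp.sum]
    simp only [nsmul_eq_mul]

/-- `PhiT` commutes with the homogeneous components -/
theorem pr_PhiT (hΦ : lawOf b = (haz p).map Φ) (d : ℤ) (c : K0 p) :
    pr B d (PhiT (ell hb) Φ c) =
      PhiT (ell hb) Φ (MvPolynomial.weightedHomogeneousComponent (wz p) d c) := by
  induction c using MvPolynomial.induction_on' with
  | monomial m z =>
    have h1 := MvPolynomial.isWeightedHomogeneous_monomial (wz p) m z rfl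
    by_cases h : d = Finsupp.weight (wz p) m
    · subst h
      rw [h1.weightedHomogeneousComponent_same, pr_same (isHomog_monomial hb hΦ m z)]
    · rw [h1.weightedHomogeneousComponent_ne d h, pr_ne (isHomog_monomial hb hΦ m z) h, map_zero]
  | add x y hx hy => rw [map_add, map_add, map_add, map_add, hx, hy]

theorem isHomog_PhiT (hΦ : lawOf b = (haz p).map Φ) {d : ℤ} {c : K0 p} (h : hK p d c) :
    IsHomog B d (PhiT (ell hb) Φ c) := by
  rw [← MvPolynomial.IsWeightedHomogeneous.weightedHomogeneousComponent_same h, ← pr_PhiT hb hΦ]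
  exact isHomog_pr _ _

theorem hK_of_isHomog (hΦ : lawOf b = (haz p).map Φ) (hi : Function.Injective (PhiT (ell hb) Φ))
    {d : ℤ} {c : K0 p} (h : IsHomog B d (PhiT (ell hb) Φ c)) : hK p d c := by
  have h1 := hi ((pr_same h).symm.trans (pr_PhiT hb hΦ d c))
  rw [h1]
  exact MvPolynomial.weightedHomogeneousComponent_isWeightedHomogeneous _ _

variable (𝒯) in
/-- **row TRA** -/
theorem traG : TraG 𝒯 := by
  intro D p _ n B _ _ b _ hb Φ X hΦ hbij
  let e := RingEquiv.ofBijective (PhiT (ell hb) Φ) hbij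
  refine ⟨(X.q.comp MvPolynomial.C).comp e.symm.toRingHom, fun c => ?_, fun d c hc => ?_,
    ⟨presMap X.pres e fun d c h => isHomog_PhiT hb hΦ h⟩⟩
  · exact congrArg (fun z => X.q (MvPolynomial.C z)) (e.symm_apply_apply c)
  · obtain ⟨c, rfl⟩ := e.surjective c
    have h1 : (X.q.comp MvPolynomial.C).comp e.symm.toRingHom (e c) = X.q (MvPolynomial.C c) :=
      congrArg (fun z => X.q (MvPolynomial.C z)) (e.symm_apply_apply c)
    rw [h1]
    exact X.q_mem d _ (hg_C (hK_of_isHomog hb hΦ hbij.1 hc))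

end Vale.Agent.P251EJ18
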